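import Vale.Agent.P255.Profile.Flat

/-!
# P255 module A1: elementary properties of the profile functions
-/

open scoped ContDiff Topology
open Set MeasureTheory intervalIntegral

namespace Vale.Agent.P255

/-- the interval of the cylinder coordinate -/
abbrev cylI : Set ℝ := Ioo (-3) 4

theorem zero_mem_cylI : (0:ℝ) ∈ cylI := ⟨by norm_num, by norm_num⟩

theorem cylI_uIcc {a r : ℝ} (ha : a ∈ cylI) (hr : r ∈ cylI) : uIcc a r ⊆ cylI :=
  ordConnected_Ioo.uIcc_subset ha hr

/-! ### the cutoffs and the slopes -/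

theorem chiL_nonneg (r : ℝ) : 0 ≤ chiL r := Real.smoothTransition.nonneg _
theorem chiL_le_one (r : ℝ) : chiL r ≤ 1 := Real.smoothTransition.le_one _
theorem chiR_nonneg (r : ℝ) : 0 ≤ chiR r := Real.smoothTransition.nonneg _
theorem chiR_le_one (r : ℝ) : chiR r ≤ 1 := Real.smoothTransition.le_one _

theorem chiL_one {r : ℝ} (h : -(1/4) ≤ r) : chiL r = 1 :=
  Real.smoothTransition.one_of_one_le (by linarith)

theorem chiR_zero {r : ℝ} (h : r ≤ 3/2) : chiR r = 0 :=
  Real.smoothTransition.zero_of_nonpos (by linarith)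

theorem chiL_smooth : ContDiff ℝ ∞ chiL :=
  Real.smoothTransition.contDiff.comp ((contDiff_const.mul contDiff_id).add contDiff_const)

theorem chiR_smooth : ContDiff ℝ ∞ chiR :=
  Real.smoothTransition.contDiff.comp ((contDiff_const.mul contDiff_id).sub contDiff_const)

theorem chiL_mono : Monotone chiL := fun _ _ h => Real.smoothTransition.monotone (by linarith)
theorem chiR_mono : Monotone chiR := fun _ _ h => Real.smoothTransition.monotone (by linarith)

theorem denL_pos {r : ℝ} (hr : r ∈ cylI) : 0 < 2 * rawL r * Real.sqrt (rawL r) :=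
  mul_pos (mul_pos two_pos (rawL_pos hr)) (Real.sqrt_pos.2 (rawL_pos hr))

theorem denR_pos {r : ℝ} (hr : r ∈ cylI) : 0 < 2 * rawR r * Real.sqrt (rawR r) :=
  mul_pos (mul_pos two_pos (rawR_pos hr)) (Real.sqrt_pos.2 (rawR_pos hr))

theorem slopeL0_nonpos {r : ℝ} (hr : r ∈ cylI) : slopeL0 r ≤ 0 :=
  div_nonpos_of_nonpos_of_nonneg (neg_nonpos.2 (mul_nonneg kk_pos.le (eflat_nonneg _)))
    (denL_pos hr).le

theorem slopeR0_nonneg {r : ℝ} (hr : r ∈ cylI) : 0 ≤ slopeR0 r :=
  div_nonneg (mul_nonneg (by rw [kap_eq]; norm_num) (eflat_nonneg _)) (denR_pos hr).le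

theorem slopeL0_ge {r : ℝ} (hr : r ∈ cylI) : -1 ≤ slopeL0 r := by
  rw [slopeL0, le_div_iff₀ (denL_pos hr)]
  have h1 : kk * eflat (1 - r) ≤ kk := mul_le_of_le_one_right kk_pos.le (eflat_le_one _)
  have h2 : 4096 ≤ kk := le_trans (by nlinarith [sq_nonneg nu]) kk_ge
  have h3 : kk ≤ rawL r := by linarith [(rawL_bounds hr).1, kk_le_aa]
  have h4 : 1 ≤ Real.sqrt (rawL r) := Real.one_le_sqrt.2 (by linarith)
  nlinarith [rawL_pos hr]

theorem slopeR0_le {r : ℝ} (hr : r ∈ cylI) : slopeR0 r ≤ 1 := by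
  rw [slopeR0, div_le_one (denR_pos hr), kap_eq]
  have h1 := (rawR_bounds hr).1
  have h4 : 1 / 2 ≤ Real.sqrt (rawR r) := Real.le_sqrt_of_sq_le (by linarith)
  nlinarith [eflat_le_one r, eflat_nonneg r]

theorem slopeL0_smooth : ContDiffOn ℝ ∞ slopeL0 cylI :=
  (contDiffOn_const.mul ((eflat_smooth.comp (contDiff_const.sub contDiff_id)).contDiffOn)).neg.div
    ((contDiffOn_const.mul rawL_smooth.contDiffOn).mul
      (rawL_smooth.contDiffOn.sqrt fun _ h => (rawL_pos h).ne')) fun _ h => (denL_pos h).ne'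

theorem slopeR0_smooth : ContDiffOn ℝ ∞ slopeR0 cylI :=
  (contDiffOn_const.mul eflat_smooth.contDiffOn).div
    ((contDiffOn_const.mul rawR_smooth.contDiffOn).mul
      (rawR_smooth.contDiffOn.sqrt fun _ h => (rawR_pos h).ne')) fun _ h => (denR_pos h).ne'

theorem slopeL_smooth : ContDiffOn ℝ ∞ slopeL cylI :=
  ((contDiffOn_const.sub chiL_smooth.contDiffOn).mul contDiffOn_const).add
    (chiL_smooth.contDiffOn.mul slopeL0_smooth)

theorem slopeR_smooth : ContDiffOn ℝ ∞ slopeR cylI :=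
  ((contDiffOn_const.sub chiR_smooth.contDiffOn).mul slopeR0_smooth).add
    (chiR_smooth.contDiffOn.mul contDiffOn_const)

theorem slopeL_nonpos {r : ℝ} (hr : r ∈ cylI) : slopeL r ≤ 0 := by
  have := slopeL0_nonpos hr
  have := chiL_nonneg r
  have := chiL_le_one r
  have := Real.pi_pos
  unfold slopeL; nlinarith

theorem slopeR_nonneg {r : ℝ} (hr : r ∈ cylI) : 0 ≤ slopeR r := by
  have := slopeR0_nonneg hr
  have := chiR_nonneg r
  have := chiR_le_one r
  have := Real.pi_pos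
  unfold slopeR; nlinarith

/-! ### the horns -/

theorem wL_hasDeriv {r : ℝ} (hr : r ∈ cylI) : HasDerivAt wL (slopeL r) r :=
  ((smooth_primitive isOpen_Ioo ordConnected_Ioo zero_mem_cylI slopeL_smooth).2 r hr).const_add _

theorem wR_hasDeriv {r : ℝ} (hr : r ∈ cylI) : HasDerivAt wR (slopeR r) r :=
  ((smooth_primitive isOpen_Ioo ordConnected_Ioo zero_mem_cylI slopeR_smooth).2 r hr).const_add _

theorem wL_smooth : ContDiffOn ℝ ∞ wL cylI :=
  contDiffOn_const.add
    (smooth_primitive isOpen_Ioo ordConnected_Ioo zero_mem_cylI slopeL_smooth).1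

theorem wR_smooth : ContDiffOn ℝ ∞ wR cylI :=
  contDiffOn_const.add
    (smooth_primitive isOpen_Ioo ordConnected_Ioo zero_mem_cylI slopeR_smooth).1

theorem invSqrtL_hasDeriv {r : ℝ} (hr : r ∈ cylI) :
    HasDerivAt (fun u => 1 / Real.sqrt (rawL u)) (slopeL0 r) r := by
  have h := rawL_pos hr
  simp only [one_div]
  refine (((rawL_hasDeriv r).sqrt h.ne').inv (Real.sqrt_pos.2 h).ne').congr_deriv ?_
  rw [slopeL0, Real.sq_sqrt h.le]
  field_simp

theorem invSqrtR_hasDeriv {r : ℝ} (hr : r ∈ cylI) :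
    HasDerivAt (fun u => 1 / Real.sqrt (rawR u)) (slopeR0 r) r := by
  have h := rawR_pos hr
  simp only [one_div]
  refine (((rawR_hasDeriv r).sqrt h.ne').inv (Real.sqrt_pos.2 h).ne').congr_deriv ?_
  rw [slopeR0, Real.sq_sqrt h.le]
  field_simp

theorem wL_eq {r : ℝ} (hr : r ∈ cylI) (h : -(1/4) ≤ r) : wL r = 1 / Real.sqrt (rawL r) := by
  have hsub := cylI_uIcc zero_mem_cylI hr
  have hs : ∀ u ∈ uIcc 0 r, HasDerivAt (fun u => 1 / Real.sqrt (rawL u)) (slopeL u) u := by
    intro u hu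
    have h4 : -(1/4) ≤ u := le_trans (le_min (by norm_num) h) hu.1
    refine (invSqrtL_hasDeriv (hsub hu)).congr_deriv ?_
    rw [slopeL, chiL_one h4]; ring
  rw [wL, integral_eq_sub_of_hasDerivAt hs
    (slopeL_smooth.continuousOn.mono hsub).intervalIntegrable]
  simp [rawL]

theorem wR_eq {r : ℝ} (hr : r ∈ cylI) (h : r ≤ 3/2) : wR r = 1 / Real.sqrt (rawR r) := by
  have hsub := cylI_uIcc zero_mem_cylI hr
  have hs : ∀ u ∈ uIcc 0 r, HasDerivAt (fun u => 1 / Real.sqrt (rawR u)) (slopeR u) u := by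
    intro u hu
    have h4 : u ≤ 3/2 := le_trans hu.2 (max_le (by norm_num) h)
    refine (invSqrtR_hasDeriv (hsub hu)).congr_deriv ?_
    rw [slopeR, chiR_zero h4]; ring
  rw [wR, integral_eq_sub_of_hasDerivAt hs
    (slopeR_smooth.continuousOn.mono hsub).intervalIntegrable]
  simp [rawR]

theorem wL_pos {r : ℝ} (hr : r ∈ cylI) : 0 < wL r := by
  rcases le_total (-(1/4)) r with h | h
  · rw [wL_eq hr h]; exact one_div_pos.2 (Real.sqrt_pos.2 (rawL_pos hr))
  · have h0 : r ≤ 0 := by linarith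
    have hi : 0 ≤ ∫ u in r..(0:ℝ), -slopeL u :=
      integral_nonneg h0 fun u hu =>
        neg_nonneg.2 (slopeL_nonpos ⟨by linarith [hr.1, hu.1], by linarith [hu.2]⟩)
    rw [intervalIntegral.integral_neg, ← integral_symm] at hi
    exact add_pos_of_pos_of_nonneg (one_div_pos.2 (Real.sqrt_pos.2 aa_pos)) hi

theorem wR_pos {r : ℝ} (hr : r ∈ cylI) : 0 < wR r := by
  rcases le_total r (3/2) with h | h
  · rw [wR_eq hr h]; exact one_div_pos.2 (Real.sqrt_pos.2 (rawR_pos hr))
  · exact add_pos_of_pos_of_nonneg one_pos (integral_nonneg (by linarith) fun u hu =>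
      slopeR_nonneg ⟨by linarith [hu.1], by linarith [hu.2, hr.2]⟩)

/-! ### the entries of `Q` -/

theorem qA_smooth : ContDiffOn ℝ ∞ qA cylI :=
  contDiffOn_const.add (contDiffOn_const.div (wL_smooth.pow 2)
    fun _ h => (pow_pos (wL_pos h) 2).ne')

theorem qG_smooth : ContDiffOn ℝ ∞ qG cylI :=
  contDiffOn_const.div (wR_smooth.pow 2) fun _ h => (pow_pos (wR_pos h) 2).ne'

theorem qM_smooth : ContDiffOn ℝ ∞ qM cylI :=
  contDiffOn_const.sub (contDiffOn_const.mul (smooth_primitive isOpen_Ioo ordConnected_Ioo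
    zero_mem_cylI (eflat_smooth.mul (eflat_smooth.comp (contDiff_const.sub contDiff_id))).contDiffOn).1)

theorem qA_eq {r : ℝ} (hr : r ∈ cylI) (h : -(1/4) ≤ r) : qA r = 1 + rawL r := by
  rw [qA, wL_eq hr h, div_pow, Real.sq_sqrt (rawL_pos hr).le]; field_simp

theorem qG_eq {r : ℝ} (hr : r ∈ cylI) (h : r ≤ 3/2) : qG r = rawR r := by
  rw [qG, wR_eq hr h, div_pow, Real.sq_sqrt (rawR_pos hr).le]; field_simp

theorem qA_pos {r : ℝ} (hr : r ∈ cylI) : 0 < qA r := by
  have := wL_pos hr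
  rw [qA]; positivity

theorem qM_left {r : ℝ} (hr : r ≤ 0) : qM r = 1 := by
  rw [qM, integral_congr (g := fun _ => (0:ℝ)) fun u hu => by
    have : u ≤ 0 := le_trans hu.2 (max_le le_rfl hr)
    simp [eflat_zero_of_nonpos this]]
  simp

theorem qM_right {r : ℝ} (hr : 1 ≤ r) : qM r = 0 := by
  rw [qM, ← integral_add_adjacent_intervals (b := (1:ℝ)) (prod_cont.intervalIntegrable _ _)
    (prod_cont.intervalIntegrable _ _), integral_congr (a := 1) (b := r) (g := fun _ => (0:ℝ))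
    fun u hu => by
      have : 1 - u ≤ 0 := by linarith [le_trans (le_min le_rfl hr) hu.1]
      simp [eflat_zero_of_nonpos this]]
  simp [nu_mul]

theorem qM_bounds {r : ℝ} (h0 : 0 ≤ r) (h1 : r ≤ 1) : 0 ≤ qM r ∧ qM r ≤ 1 := by
  have hn : ∀ u, 0 ≤ eflat u * eflat (1 - u) := fun u => mul_nonneg (eflat_nonneg _) (eflat_nonneg _)
  have i1 : 0 ≤ ∫ u in (0:ℝ)..r, eflat u * eflat (1 - u) := integral_nonneg h0 fun u _ => hn u
  have i2 : 0 ≤ ∫ u in r..(1:ℝ), eflat u * eflat (1 - u) := integral_nonneg h1 fun u _ => hn u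
  have h := nu_mul
  rw [← integral_add_adjacent_intervals (b := r) (prod_cont.intervalIntegrable _ _)
    (prod_cont.intervalIntegrable _ _), mul_add] at h
  constructor
  · rw [qM]; linarith [mul_nonneg nu_pos.le i2]
  · rw [qM]; linarith [mul_nonneg nu_pos.le i1]

theorem qG_left {r : ℝ} (hr : r ∈ cylI) (h0 : r ≤ 0) : qG r = 1 := by
  rw [qG_eq hr (by linarith), rawR, integral_congr (g := fun _ => (0:ℝ)) fun u hu =>
    eflat_zero_of_nonpos (le_trans hu.2 (max_le le_rfl h0))]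
  simp

theorem qA_right {r : ℝ} (hr : r ∈ cylI) (h1 : 1 ≤ r) : qA r = qA 1 := by
  have h1m : (1:ℝ) ∈ cylI := ⟨by norm_num, by norm_num⟩
  rw [qA_eq hr (by linarith), qA_eq h1m (by norm_num), rawL, rawL,
    ← integral_add_adjacent_intervals (a := 0) (b := (1:ℝ)) (c := r)
      (eflat_one_sub_cont.intervalIntegrable _ _) (eflat_one_sub_cont.intervalIntegrable _ _),
    integral_congr (a := 1) (b := r) (g := fun _ => (0:ℝ))
      fun u hu => eflat_zero_of_nonpos (by linarith [le_trans (le_min le_rfl h1) hu.1])]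
  simp

theorem qD_pos {r : ℝ} (hr : r ∈ cylI) : 0 < qD r := by
  rcases le_or_gt r 0 with h0 | h0
  · rw [qD, qM_left h0, qG_left hr h0, qA]
    have := one_div_pos.2 (pow_pos (wL_pos hr) 2)
    linarith
  rcases le_or_gt 1 r with h1 | h1
  · rw [qD, qM_right h1, qG]
    have h3 : 0 < qA r * (1 / wR r ^ 2) :=
      mul_pos (qA_pos hr) (one_div_pos.2 (pow_pos (wR_pos hr) 2))
    linarith
  · obtain ⟨m0, m1⟩ := qM_bounds h0.le h1.le
    rw [qD, qA_eq hr (by linarith), qG_eq hr (by linarith)]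
    have h2 := (rawL_bounds hr).1
    have h3 := (rawR_bounds hr).1
    have h4 : 4 ≤ rawL r := by nlinarith [kk_le_aa, kk_ge, sq_nonneg nu]
    nlinarith

/-- the left horn is convex and shrinks towards the collar -/
theorem wL_convex {r : ℝ} (hr : r ∈ cylI) (_h0 : r ≤ 0) :
    deriv wL r ≤ 0 ∧ 0 ≤ deriv (deriv wL) r := by
  refine ⟨(wL_hasDeriv hr).deriv ▸ slopeL_nonpos hr, ?_⟩
  have he : deriv wL =ᶠ[𝓝 r] slopeL :=
    Filter.eventually_of_mem (isOpen_Ioo.mem_nhds hr) fun u hu => (wL_hasDeriv hu).deriv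
  have hf := rawL_hasDeriv r
  have hN := ((hasDerivAt_eflat_one_sub r).const_mul kk).fun_neg
  have hD := (hf.const_mul 2).fun_mul (hf.sqrt (rawL_pos hr).ne')
  have hc : HasDerivAt chiL (deriv chiL r) r :=
    (chiL_smooth.differentiable (by simp) r).hasDerivAt
  have hS : HasDerivAt slopeL _ r :=
    ((hc.const_sub 1).mul_const (-(2 * Real.pi))).fun_add
      (hc.fun_mul (hN.fun_div hD (denL_pos hr).ne'))
  rw [he.deriv_eq, hS.deriv]
  have hc' : 0 ≤ deriv chiL r := chiL_mono.deriv_nonneg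
  have h0 : 0 ≤ slopeL0 r + 2 * Real.pi := by linarith [slopeL0_ge hr, Real.pi_gt_three]
  have := chiL_nonneg r
  have := deriv_eflat_nonneg (1 - r)
  have := eflat_nonneg (1 - r)
  have := kk_pos
  have := rawL_pos hr
  have hq : 0 ≤ (-(kk * -deriv eflat (1 - r)) * (2 * rawL r * Real.sqrt (rawL r)) -
      -(kk * eflat (1 - r)) * (2 * (kk * eflat (1 - r)) * Real.sqrt (rawL r) +
        2 * rawL r * (kk * eflat (1 - r) / (2 * Real.sqrt (rawL r))))) /
      (2 * rawL r * Real.sqrt (rawL r)) ^ 2 := by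
    simp only [mul_neg, neg_neg, neg_mul, sub_neg_eq_add]
    positivity
  nlinarith [mul_nonneg hc' h0, mul_nonneg (chiL_nonneg r) hq]

/-- the right horn is convex and grows away from the collar -/
theorem wR_convex {r : ℝ} (hr : r ∈ cylI) (_h1 : 1 ≤ r) :
    0 ≤ deriv wR r ∧ 0 ≤ deriv (deriv wR) r := by
  refine ⟨(wR_hasDeriv hr).deriv ▸ slopeR_nonneg hr, ?_⟩
  have he : deriv wR =ᶠ[𝓝 r] slopeR :=
    Filter.eventually_of_mem (isOpen_Ioo.mem_nhds hr) fun u hu => (wR_hasDeriv hu).deriv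
  have hf := rawR_hasDeriv r
  have hN := (hasDerivAt_eflat r).const_mul kap
  have hD := (hf.const_mul 2).fun_mul (hf.sqrt (rawR_pos hr).ne')
  have hc : HasDerivAt chiR (deriv chiR r) r :=
    (chiR_smooth.differentiable (by simp) r).hasDerivAt
  have hS : HasDerivAt slopeR _ r :=
    ((hc.const_sub 1).fun_mul (hN.fun_div hD (denR_pos hr).ne')).fun_add
      (hc.mul_const (2 * Real.pi))
  rw [he.deriv_eq, hS.deriv]
  have hc' : 0 ≤ deriv chiR r := chiR_mono.deriv_nonneg
  have h0 : 0 ≤ 2 * Real.pi - slopeR0 r := by linarith [slopeR0_le hr, Real.pi_gt_three]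
  have := deriv_eflat_nonneg r
  have := eflat_nonneg r
  have : 0 < kap := by rw [kap_eq]; norm_num
  have := rawR_pos hr
  have hq : 0 ≤ (kap * deriv eflat r * (2 * rawR r * Real.sqrt (rawR r)) -
      kap * eflat r * (2 * -(kap * eflat r) * Real.sqrt (rawR r) +
        2 * rawR r * (-(kap * eflat r) / (2 * Real.sqrt (rawR r))))) /
      (2 * rawR r * Real.sqrt (rawR r)) ^ 2 := by
    simp only [mul_neg, neg_mul, neg_div, ← neg_add, sub_neg_eq_add]
    positivity
  rw [slopeR0] at h0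
  nlinarith [mul_nonneg hc' h0, mul_nonneg (sub_nonneg.2 (chiR_le_one r)) hq]

/-- the left horn is a flat plane region for `r ≤ -1/2` -/
theorem wL_flat {r : ℝ} (hr : r ∈ cylI) (h : r ≤ -(1/2)) :
    wL r = wL (-1) + 2 * Real.pi * (-1 - r) := by
  have hm : (-1:ℝ) ∈ cylI := ⟨by norm_num, by norm_num⟩
  have hsub := cylI_uIcc hm hr
  have hs : ∀ u ∈ uIcc (-1) r, HasDerivAt wL (-(2 * Real.pi)) u := by
    intro u hu
    have hu' : u ≤ -(1/2) := le_trans hu.2 (max_le (by norm_num) h)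
    refine (wL_hasDeriv (hsub hu)).congr_deriv ?_
    rw [slopeL, chiL, Real.smoothTransition.zero_of_nonpos (by linarith)]; ring
  have := integral_eq_sub_of_hasDerivAt hs intervalIntegrable_const
  rw [intervalIntegral.integral_const, smul_eq_mul] at this
  linarith

/-- the right horn is a flat plane region for `2 ≤ r` -/
theorem wR_flat {r : ℝ} (hr : r ∈ cylI) (h : 2 ≤ r) :
    wR r = wR 2 + 2 * Real.pi * (r - 2) := by
  have hm : (2:ℝ) ∈ cylI := ⟨by norm_num, by norm_num⟩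
  have hsub := cylI_uIcc hm hr
  have hs : ∀ u ∈ uIcc 2 r, HasDerivAt wR (2 * Real.pi) u := by
    intro u hu
    have hu' : 2 ≤ u := le_trans (le_min le_rfl h) hu.1
    refine (wR_hasDeriv (hsub hu)).congr_deriv ?_
    rw [slopeR, chiR, Real.smoothTransition.one_of_one_le (by linarith)]; ring
  have := integral_eq_sub_of_hasDerivAt hs intervalIntegrable_const
  rw [intervalIntegral.integral_const, smul_eq_mul] at this
  linarith

end Vale.Agent.P255
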