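import Mathlib

/-!
# P255: the profile functions of the metric on the cylinder `(-3,4) × ℝ²`

Coordinates `(r, v, u)`; the metric is `dr² + g(r)` and `Q(r) = g(r)⁻¹` has the entries
`α μ / μ γ`. For `r ≤ 0` the metric is `dr² + wL(r)² (dv - du)² + du²` (a horn times a circle),
for `r ≥ 1` it is `dr² + L² dv² + wR(r)² du²`.
-/

open scoped ContDiff
open Set MeasureTheory

namespace Vale.Agent.P255

/-- the flat function `exp (-1/x)` extended by `0` -/
noncomputable def eflat (x : ℝ) : ℝ := expNegInvGlue x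

/-- normalisation constant of the off-diagonal entry -/
noncomputable def nu : ℝ := 1 / ∫ u in (0:ℝ)..1, eflat u * eflat (1 - u)

/-- the size of the decrease of `γ` -/
noncomputable def kap : ℝ := 1 / 4096

/-- the size of the increase of `α` -/
noncomputable def kk : ℝ := 10 ^ 6 * (nu ^ 2 + 1) / kap

/-- the initial value of `α` -/
noncomputable def aa : ℝ := 10 ^ 6 * kk * (nu + 1)

/-- cutoff: `0` for `r ≤ -1/2`, `1` for `-1/4 ≤ r` -/
noncomputable def chiL (r : ℝ) : ℝ := Real.smoothTransition (4 * r + 2)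

/-- cutoff: `0` for `r ≤ 3/2`, `1` for `2 ≤ r` -/
noncomputable def chiR (r : ℝ) : ℝ := Real.smoothTransition (2 * r - 3)

/-- `wL ^ (-2)` in the collar -/
noncomputable def rawL (r : ℝ) : ℝ := aa + kk * ∫ u in (0:ℝ)..r, eflat (1 - u)

/-- `wR ^ (-2)` in the collar -/
noncomputable def rawR (r : ℝ) : ℝ := 1 - kap * ∫ u in (0:ℝ)..r, eflat u

/-- the slope of the left horn in the collar -/
noncomputable def slopeL0 (r : ℝ) : ℝ :=
  -(kk * eflat (1 - r)) / (2 * rawL r * Real.sqrt (rawL r))

/-- the slope of the right horn in the collar -/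
noncomputable def slopeR0 (r : ℝ) : ℝ :=
  (kap * eflat r) / (2 * rawR r * Real.sqrt (rawR r))

/-- the slope of the left horn -/
noncomputable def slopeL (r : ℝ) : ℝ := (1 - chiL r) * (-(2 * Real.pi)) + chiL r * slopeL0 r

/-- the slope of the right horn -/
noncomputable def slopeR (r : ℝ) : ℝ := (1 - chiR r) * slopeR0 r + chiR r * (2 * Real.pi)

/-- circumference of the left horn -/
noncomputable def wL (r : ℝ) : ℝ := 1 / Real.sqrt aa + ∫ u in (0:ℝ)..r, slopeL u

/-- circumference of the right horn -/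
noncomputable def wR (r : ℝ) : ℝ := 1 + ∫ u in (0:ℝ)..r, slopeR u

/-- the `vv` entry of `Q` -/
noncomputable def qA (r : ℝ) : ℝ := 1 + 1 / wL r ^ 2

/-- the `vu` entry of `Q` -/
noncomputable def qM (r : ℝ) : ℝ := 1 - nu * ∫ u in (0:ℝ)..r, eflat u * eflat (1 - u)

/-- the `uu` entry of `Q` -/
noncomputable def qG (r : ℝ) : ℝ := 1 / wR r ^ 2

/-- the determinant of `Q` -/
noncomputable def qD (r : ℝ) : ℝ := qA r * qG r - qM r ^ 2

/-- the quadratic form of a symmetric matrix `a m / m c` -/
def qf (a m c x z : ℝ) : ℝ := a * x ^ 2 + 2 * m * x * z + c * z ^ 2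

/-- `U(r) = pᵀ Q(r) p` for the momentum `p = (x, z)` -/
noncomputable def qU (x z r : ℝ) : ℝ := qf (qA r) (qM r) (qG r) x z

/-- `dU/dr` -/
noncomputable def qU' (x z r : ℝ) : ℝ := qf (deriv qA r) (deriv qM r) (deriv qG r) x z

/-- `d²U/dr²` -/
noncomputable def qU'' (x z r : ℝ) : ℝ :=
  qf (deriv (deriv qA) r) (deriv (deriv qM) r) (deriv (deriv qG) r) x z

/-- velocity of `v - u` -/
noncomputable def bdot (x z r : ℝ) : ℝ := (qA r - qM r) * x + (qM r - qG r) * z

/-- velocity of `u` -/
noncomputable def udot (x z r : ℝ) : ℝ := qM r * x + qG r * z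

/-- `β Q' p` for `β = (1,-1)` -/
noncomputable def bdot' (x z r : ℝ) : ℝ :=
  (deriv qA r - deriv qM r) * x + (deriv qM r - deriv qG r) * z

/-- `β Q' p` for `β = (0,1)` -/
noncomputable def udot' (x z r : ℝ) : ℝ := deriv qM r * x + deriv qG r * z

/-- length of the fibre of the right piece -/
noncomputable def fibR : ℝ := 1 / Real.sqrt (qA 1)

end Vale.Agent.P255
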