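import Vale.Agent.P255.Profile.Defs

/-!
# P255 module A2: the algebra behind the collar inequalities

`e0, e1` stand for `E r, E (1 - r)`, `d0, d1` for `E'`; `A, M, G` for the entries of `Q`.
-/

namespace Vale.Agent.P255

/-- the numerical facts used in the collar -/
structure CollarPt (k κ ν a e0 e1 d0 d1 A M G : ℝ) : Prop where
  nu0 : 0 ≤ ν
  kap0 : 0 < κ
  kap1 : κ ≤ 1 / 4096
  kkap : 10 ^ 6 * (ν ^ 2 + 1) ≤ k * κ
  aeq : a = 10 ^ 6 * k * (ν + 1)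
  e0n : 0 ≤ e0
  e1n : 0 ≤ e1
  e01 : e0 ≤ 1
  e11 : e1 ≤ 1
  d01 : d0 ≤ 1
  d11 : d1 ≤ 1
  ed0 : e0 ≤ d0
  ed1 : e1 ≤ d1
  Age : a ≤ A
  Ale : A ≤ 2 * a
  M0 : 0 ≤ M
  M1 : M ≤ 1
  Mle : M ≤ ν * e1
  MG : |M - G| ≤ (ν + 1) * e0
  G0 : 1 / 2 ≤ G
  G1 : G ≤ 1

namespace CollarPt

variable {k κ ν a e0 e1 d0 d1 A M G : ℝ} (h : CollarPt k κ ν a e0 e1 d0 d1 A M G) (x z : ℝ)
include h

theorem k_pos : 0 < k := by
  have := h.kkap
  nlinarith [h.kap0, sq_nonneg ν]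

theorem k_ge : 10 ^ 6 ≤ k := by
  have h1 := h.kkap
  nlinarith [h.kap0, h.kap1, sq_nonneg ν, h.k_pos]

theorem a_ge : 10 ^ 6 * k ≤ a := by
  rw [h.aeq]; nlinarith [h.k_pos, h.nu0]

theorem concave :
    k / 2 * d1 * x ^ 2 + κ / 2 * d0 * z ^ 2
      ≤ -qf (-(k * d1)) (-(ν * (d0 * e1 - e0 * d1))) (-(κ * d0)) x z := by
  have hκ := h.kap0
  have hk := h.k_pos
  have hd0 : 0 ≤ d0 := h.e0n.trans h.ed0
  have hd1 : 0 ≤ d1 := h.e1n.trans h.ed1
  have hν : 16 * ν ^ 2 ≤ k * κ := by nlinarith [h.kkap, sq_nonneg ν]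
  have q1 : d0 * e1 ^ 2 ≤ d1 :=
    calc d0 * e1 ^ 2 ≤ 1 * e1 ^ 2 := mul_le_mul_of_nonneg_right h.d01 (sq_nonneg _)
      _ ≤ e1 := by nlinarith [h.e1n, h.e11]
      _ ≤ d1 := h.ed1
  have q2 : d1 * e0 ^ 2 ≤ d0 :=
    calc d1 * e0 ^ 2 ≤ 1 * e0 ^ 2 := mul_le_mul_of_nonneg_right h.d11 (sq_nonneg _)
      _ ≤ e0 := by nlinarith [h.e0n, h.e01]
      _ ≤ d0 := h.ed0
  have b1 : -2 * ν * d0 * e1 * (x * z) ≤ κ / 4 * d0 * z ^ 2 + k / 4 * d1 * x ^ 2 := by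
    have s := mul_nonneg hd0 (sq_nonneg (κ * z + 4 * ν * e1 * x))
    have t : 16 * ν ^ 2 * (d0 * e1 ^ 2) ≤ k * κ * d1 :=
      mul_le_mul hν q1 (mul_nonneg hd0 (sq_nonneg _)) (by positivity)
    have t' := mul_le_mul_of_nonneg_right t (sq_nonneg x)
    nlinarith [s, t']
  have b2 : 2 * ν * e0 * d1 * (x * z) ≤ k / 4 * d1 * x ^ 2 + κ / 4 * d0 * z ^ 2 := by
    have s := mul_nonneg hd1 (sq_nonneg (k * x - 4 * ν * e0 * z))
    have t : 16 * ν ^ 2 * (d1 * e0 ^ 2) ≤ k * κ * d0 :=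
      mul_le_mul hν q2 (mul_nonneg hd1 (sq_nonneg _)) (by positivity)
    have t' := mul_le_mul_of_nonneg_right t (sq_nonneg z)
    nlinarith [s, t']
  simp only [qf]
  nlinarith [b1, b2]

theorem cross_le :
    |2 * (-(ν * e0 * e1)) * x * z| ≤ κ * e0 * z ^ 2 / 2 + k * e1 * x ^ 2 / 2 := by
  have hκ := h.kap0
  have t : 4 * ν ^ 2 * (e0 * e1 ^ 2) ≤ k * κ * e1 := by
    have q : e0 * e1 ^ 2 ≤ e1 := by
      nlinarith [h.e0n, h.e01, h.e1n, h.e11, mul_le_mul_of_nonneg_right h.e01 (sq_nonneg e1)]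
    exact mul_le_mul (by nlinarith [h.kkap, sq_nonneg ν]) q
      (mul_nonneg h.e0n (sq_nonneg _)) (mul_nonneg h.k_pos.le hκ.le)
  have t' := mul_le_mul_of_nonneg_right t (sq_nonneg x)
  have s1 := mul_nonneg h.e0n (sq_nonneg (κ * z + 2 * ν * e1 * x))
  have s2 := mul_nonneg h.e0n (sq_nonneg (κ * z - 2 * ν * e1 * x))
  rw [abs_le]
  constructor <;> nlinarith [s1, s2, t']

/-- the consequences of `0 < U'` -/
theorem up_facts (hU : 0 < qf (k * e1) (-(ν * e0 * e1)) (-(κ * e0)) x z) :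
    qf (k * e1) (-(ν * e0 * e1)) (-(κ * e0)) x z ≤ 2 * (k * e1 * x ^ 2) ∧ e0 * |z| ≤ k * |x| ∧
      0 < |x| ∧ a / 2 * |x| ≤ |(A - M) * x + (M - G) * z| ∧
      |(A - M) * x + (M - G) * z| ≤ 3 * a * |x| := by
  obtain ⟨c1, c2⟩ := abs_le.1 (h.cross_le x z)
  simp only [qf] at hU ⊢
  have hκ := h.kap0
  have hk := h.k_pos
  have hx2 : 0 ≤ k * e1 * x ^ 2 := mul_nonneg (mul_nonneg hk.le h.e1n) (sq_nonneg x)
  have hz2 : 0 ≤ κ * e0 * z ^ 2 := mul_nonneg (mul_nonneg hκ.le h.e0n) (sq_nonneg z)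
  have hC : κ * e0 * z ^ 2 ≤ 3 * (k * e1 * x ^ 2) := by linarith
  have hz : e0 * |z| ≤ k * |x| := by
    refine (sq_le_sq₀ (mul_nonneg h.e0n (abs_nonneg z)) (mul_nonneg hk.le (abs_nonneg x))).1 ?_
    rw [mul_pow, mul_pow, sq_abs, sq_abs]
    have h1 : κ * (e0 ^ 2 * z ^ 2) ≤ e0 * (3 * (k * e1 * x ^ 2)) := by
      calc κ * (e0 ^ 2 * z ^ 2) = e0 * (κ * e0 * z ^ 2) := by ring
        _ ≤ _ := mul_le_mul_of_nonneg_left hC h.e0n
    have h2 : e0 * (3 * (k * e1 * x ^ 2)) ≤ k * κ * (k * x ^ 2) := by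
      calc e0 * (3 * (k * e1 * x ^ 2)) = 3 * (e0 * e1) * (k * x ^ 2) := by ring
        _ ≤ _ := mul_le_mul_of_nonneg_right (by
          nlinarith [h.kkap, sq_nonneg ν, mul_le_mul h.e01 h.e11 h.e1n zero_le_one])
          (mul_nonneg hk.le (sq_nonneg x))
    exact le_of_mul_le_mul_left (h1.trans (h2.trans_eq (by ring))) hκ
  have hx : 0 < |x| := by
    refine abs_pos.2 fun hx0 => ?_
    subst hx0
    nlinarith
  have hMG : |(M - G) * z| ≤ (ν + 1) * k * |x| := by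
    rw [abs_mul]
    calc |M - G| * |z| ≤ (ν + 1) * e0 * |z| := mul_le_mul_of_nonneg_right h.MG (abs_nonneg z)
      _ ≤ _ := by
        rw [mul_assoc, mul_assoc]
        exact mul_le_mul_of_nonneg_left hz (by linarith [h.nu0])
  have hbig : 8 * ((ν + 1) * k) + 8 ≤ a := by
    rw [h.aeq]; nlinarith [h.k_ge, h.nu0]
  have hAM : 0 ≤ A - M := by linarith [h.Age, h.M1, hbig, mul_nonneg (add_nonneg h.nu0 zero_le_one) hk.le]
  refine ⟨by linarith, hz, hx, ?_, ?_⟩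
  · have h1 := abs_sub_abs_le_abs_sub ((A - M) * x) (-((M - G) * z))
    rw [abs_neg, sub_neg_eq_add, abs_mul (A - M) x, abs_of_nonneg hAM] at h1
    have h3 : (a - 1) * |x| ≤ (A - M) * |x| :=
      mul_le_mul_of_nonneg_right (by linarith [h.Age, h.M1]) (abs_nonneg x)
    nlinarith
  · refine (abs_add_le _ _).trans ?_
    rw [abs_mul (A - M) x, abs_of_nonneg hAM]
    have h3 : (A - M) * |x| ≤ 2 * a * |x| :=
      mul_le_mul_of_nonneg_right (by linarith [h.Ale, h.M0]) (abs_nonneg x)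
    nlinarith

/-- the consequences of `U' < 0` -/
theorem down_facts (hU : qf (k * e1) (-(ν * e0 * e1)) (-(κ * e0)) x z < 0) :
    -(2 * (κ * e0 * z ^ 2)) ≤ qf (k * e1) (-(ν * e0 * e1)) (-(κ * e0)) x z ∧
      ν * e1 * |x| ≤ κ * |z| ∧
      0 < |z| ∧ |z| / 4 ≤ |M * x + G * z| ∧ |M * x + G * z| ≤ 2 * |z| := by
  obtain ⟨c1, c2⟩ := abs_le.1 (h.cross_le x z)
  simp only [qf] at hU ⊢
  have hκ := h.kap0
  have hk := h.k_pos
  have hx2 : 0 ≤ k * e1 * x ^ 2 := mul_nonneg (mul_nonneg hk.le h.e1n) (sq_nonneg x)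
  have hz2 : 0 ≤ κ * e0 * z ^ 2 := mul_nonneg (mul_nonneg hκ.le h.e0n) (sq_nonneg z)
  have hA : k * e1 * x ^ 2 ≤ 3 * (κ * e0 * z ^ 2) := by linarith
  have hx : ν * e1 * |x| ≤ κ * |z| := by
    refine (sq_le_sq₀ (mul_nonneg (mul_nonneg h.nu0 h.e1n) (abs_nonneg x))
      (mul_nonneg hκ.le (abs_nonneg z))).1 ?_
    rw [mul_pow, mul_pow, mul_pow, sq_abs, sq_abs]
    have h1 : k * (ν ^ 2 * e1 ^ 2 * x ^ 2) ≤ ν ^ 2 * e1 * (3 * (κ * e0 * z ^ 2)) := by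
      calc k * (ν ^ 2 * e1 ^ 2 * x ^ 2) = ν ^ 2 * e1 * (k * e1 * x ^ 2) := by ring
        _ ≤ _ := mul_le_mul_of_nonneg_left hA (mul_nonneg (sq_nonneg _) h.e1n)
    have h2 : ν ^ 2 * e1 * (3 * (κ * e0 * z ^ 2)) ≤ k * κ * (κ * z ^ 2) := by
      calc ν ^ 2 * e1 * (3 * (κ * e0 * z ^ 2)) = 3 * ν ^ 2 * (e0 * e1) * (κ * z ^ 2) := by ring
        _ ≤ _ := mul_le_mul_of_nonneg_right (by
          nlinarith [h.kkap, sq_nonneg ν, mul_le_mul h.e01 h.e11 h.e1n zero_le_one,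
            mul_nonneg (sq_nonneg ν) (mul_nonneg h.e0n h.e1n)])
          (mul_nonneg hκ.le (sq_nonneg z))
    exact le_of_mul_le_mul_left (h1.trans (h2.trans_eq (by ring))) hk
  have hz : 0 < |z| := by
    refine abs_pos.2 fun hz0 => ?_
    subst hz0
    nlinarith
  have hMx : |M * x| ≤ κ * |z| := by
    rw [abs_mul, abs_of_nonneg h.M0]
    exact (mul_le_mul_of_nonneg_right h.Mle (abs_nonneg x)).trans hx
  have hκz : κ * |z| ≤ 1 / 4096 * |z| := mul_le_mul_of_nonneg_right h.kap1 (abs_nonneg z)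
  refine ⟨by linarith, hx, hz, ?_, ?_⟩
  · have h1 := abs_sub_abs_le_abs_sub (G * z) (-(M * x))
    rw [abs_neg, sub_neg_eq_add, abs_mul G z, abs_of_nonneg (by linarith [h.G0] : 0 ≤ G)] at h1
    rw [add_comm (M * x)]
    nlinarith [mul_le_mul_of_nonneg_right h.G0 (abs_nonneg z)]
  · refine (abs_add_le _ _).trans ?_
    rw [abs_mul G z, abs_of_nonneg (by linarith [h.G0] : 0 ≤ G)]
    nlinarith [mul_le_mul_of_nonneg_right h.G1 (abs_nonneg z)]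

theorem left (hU : 0 < qf (k * e1) (-(ν * e0 * e1)) (-(κ * e0)) x z) :
    0 ≤ -(1/2) * qf (-(k * d1)) (-(ν * (d0 * e1 - e0 * d1))) (-(κ * d0)) x z
      + qf (k * e1) (-(ν * e0 * e1)) (-(κ * e0)) x z
          * ((k * e1 - -(ν * e0 * e1)) * x + (-(ν * e0 * e1) - -(κ * e0)) * z)
          / ((A - M) * x + (M - G) * z)
      - qf (k * e1) (-(ν * e0 * e1)) (-(κ * e0)) x z ^ 2 * (A - 2 * M + G)
          / (4 * ((A - M) * x + (M - G) * z) ^ 2) := by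
  obtain ⟨hUle, hz, hx, hb0, hb1⟩ := h.up_facts x z hU
  have hconc := h.concave x z
  generalize hP : qf (k * e1) (-(ν * e0 * e1)) (-(κ * e0)) x z = P at hU hUle ⊢
  generalize hS : qf (-(k * d1)) (-(ν * (d0 * e1 - e0 * d1))) (-(κ * d0)) x z = S at hconc ⊢
  generalize hB : (A - M) * x + (M - G) * z = b at hb0 hb1 ⊢
  generalize hB' : (k * e1 - -(ν * e0 * e1)) * x + (-(ν * e0 * e1) - -(κ * e0)) * z = b'
  have hk := h.k_pos
  have hν := h.nu0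
  have ha : 0 < a := by linarith [h.a_ge, hk]
  have hbne : b ≠ 0 := abs_pos.1 (lt_of_lt_of_le (by positivity) hb0)
  have hb' : |b'| ≤ 3 * k * (ν + 1) * |x| := by
    rw [← hB']
    refine (abs_add_le _ _).trans ?_
    rw [abs_mul, abs_mul]
    have t1 : |k * e1 - -(ν * e0 * e1)| ≤ k + ν := by
      rw [sub_neg_eq_add, abs_of_nonneg (by have := h.e0n; have := h.e1n; positivity)]
      nlinarith [mul_le_mul h.e01 h.e11 h.e1n zero_le_one, h.e11]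
    have t2 : |-(ν * e0 * e1) - -(κ * e0)| ≤ (ν + 1) * e0 := by
      rw [abs_le]
      constructor <;>
        nlinarith [mul_le_mul_of_nonneg_left h.e11 (mul_nonneg hν h.e0n),
          mul_le_mul_of_nonneg_right h.kap1 h.e0n, mul_nonneg (mul_nonneg hν h.e0n) h.e1n,
          mul_nonneg h.kap0.le h.e0n]
    have t1' := mul_le_mul_of_nonneg_right t1 (abs_nonneg x)
    have t2' : |-(ν * e0 * e1) - -(κ * e0)| * |z| ≤ (ν + 1) * (k * |x|) :=
      (mul_le_mul_of_nonneg_right t2 (abs_nonneg z)).trans (by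
        rw [mul_assoc]; exact mul_le_mul_of_nonneg_left hz (by linarith))
    nlinarith [mul_nonneg hν hk.le, mul_le_mul_of_nonneg_left h.k_ge hν]
  have e : -(1/2) * S + P * b' / b - P ^ 2 * (A - 2 * M + G) / (4 * b ^ 2)
      = (-(2 * S) * b ^ 2 + 4 * (P * b' * b) - P ^ 2 * (A - 2 * M + G)) / (4 * b ^ 2) := by
    field_simp; ring
  rw [e]
  refine div_nonneg ?_ (by positivity)
  set w := e1 * x ^ 2 * x ^ 2 with hw
  have hw0 : 0 ≤ w := by have := h.e1n; positivity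
  have m1 : k * a ^ 2 / 4 * w ≤ -(2 * S) * b ^ 2 := by
    have q1 : k * e1 * x ^ 2 ≤ -(2 * S) := by
      have hd : k * e1 * x ^ 2 ≤ k * d1 * x ^ 2 :=
        mul_le_mul_of_nonneg_right (mul_le_mul_of_nonneg_left h.ed1 hk.le) (sq_nonneg x)
      have hd0 : 0 ≤ κ * d0 * z ^ 2 :=
        mul_nonneg (mul_nonneg h.kap0.le (h.e0n.trans h.ed0)) (sq_nonneg z)
      linarith
    have q2 : (a / 2 * |x|) ^ 2 ≤ b ^ 2 := by
      rw [← sq_abs b]; exact pow_le_pow_left₀ (by positivity) hb0 2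
    rw [mul_pow, sq_abs] at q2
    calc k * a ^ 2 / 4 * w = k * e1 * x ^ 2 * ((a / 2) ^ 2 * x ^ 2) := by rw [hw]; ring
      _ ≤ _ := mul_le_mul q1 q2 (by positivity) (le_trans (by have := h.e1n; positivity) q1)
  have m2 : -(18 * k ^ 2 * (ν + 1) * a * w) ≤ P * b' * b := by
    refine (abs_le.1 (?_ : |P * b' * b| ≤ _)).1
    rw [abs_mul, abs_mul, abs_of_pos hU]
    calc P * |b'| * |b| ≤ 2 * (k * e1 * x ^ 2) * (3 * k * (ν + 1) * |x|) * (3 * a * |x|) :=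
          mul_le_mul (mul_le_mul hUle hb' (abs_nonneg _) (by linarith)) hb1 (abs_nonneg _)
            (by have := h.e1n; positivity)
      _ = 18 * k ^ 2 * (ν + 1) * a * e1 * x ^ 2 * (|x| * |x|) := by ring
      _ = _ := by rw [hw, abs_mul_abs_self]; ring
  have m3 : P ^ 2 * (A - 2 * M + G) ≤ 12 * k ^ 2 * a * w := by
    have q1 : A - 2 * M + G ≤ 3 * a := by linarith [h.Ale, h.M0, h.G1, h.a_ge, h.k_ge]
    calc P ^ 2 * (A - 2 * M + G) ≤ P ^ 2 * (3 * a) :=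
          mul_le_mul_of_nonneg_left q1 (sq_nonneg P)
      _ ≤ (2 * (k * e1 * x ^ 2)) ^ 2 * (3 * a) :=
          mul_le_mul_of_nonneg_right (pow_le_pow_left₀ hU.le hUle 2) (by positivity)
      _ = e1 * (12 * k ^ 2 * a * w) := by rw [hw]; ring
      _ ≤ _ := mul_le_of_le_one_left (by positivity) h.e11
  have m4 : (72 * k ^ 2 * (ν + 1) * a + 12 * k ^ 2 * a) * w ≤ k * a ^ 2 / 4 * w := by
    refine mul_le_mul_of_nonneg_right ?_ hw0
    have hka : 336 * k * (ν + 1) ≤ a := by rw [h.aeq]; nlinarith [mul_nonneg hk.le hν]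
    nlinarith [mul_le_mul_of_nonneg_left hka (mul_nonneg hk.le ha.le),
      mul_nonneg (mul_nonneg (sq_nonneg k) ha.le) hν]
  linarith

theorem right (hU : qf (k * e1) (-(ν * e0 * e1)) (-(κ * e0)) x z < 0) :
    0 ≤ -(1/2) * qf (-(k * d1)) (-(ν * (d0 * e1 - e0 * d1))) (-(κ * d0)) x z
      + qf (k * e1) (-(ν * e0 * e1)) (-(κ * e0)) x z
          * (-(ν * e0 * e1) * x + -(κ * e0) * z) / (M * x + G * z)
      - qf (k * e1) (-(ν * e0 * e1)) (-(κ * e0)) x z ^ 2 * G / (4 * (M * x + G * z) ^ 2) := by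
  obtain ⟨hUge, hx, hz, hb0, hb1⟩ := h.down_facts x z hU
  have hconc := h.concave x z
  generalize hP : qf (k * e1) (-(ν * e0 * e1)) (-(κ * e0)) x z = P at hU hUge ⊢
  generalize hS : qf (-(k * d1)) (-(ν * (d0 * e1 - e0 * d1))) (-(κ * d0)) x z = S at hconc ⊢
  generalize hB : M * x + G * z = b at hb0 hb1 ⊢
  generalize hB' : -(ν * e0 * e1) * x + -(κ * e0) * z = b'
  have hk := h.k_pos
  have hκ := h.kap0
  have he0 := h.e0n
  have hbne : b ≠ 0 := abs_pos.1 (lt_of_lt_of_le (by positivity) hb0)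
  have hb' : |b'| ≤ 2 * κ * |z| := by
    rw [← hB']
    refine (abs_add_le _ _).trans ?_
    rw [abs_mul, abs_mul, abs_neg, abs_neg,
      abs_of_nonneg (mul_nonneg (mul_nonneg h.nu0 he0) h.e1n), abs_of_nonneg (mul_nonneg hκ.le he0)]
    nlinarith [mul_le_mul_of_nonneg_left hx he0, mul_le_mul_of_nonneg_right h.e01
      (mul_nonneg hκ.le (abs_nonneg z))]
  have e : -(1/2) * S + P * b' / b - P ^ 2 * G / (4 * b ^ 2)
      = (-(2 * S) * b ^ 2 + 4 * (P * b' * b) - P ^ 2 * G) / (4 * b ^ 2) := by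
    field_simp; ring
  rw [e]
  refine div_nonneg ?_ (by positivity)
  set w := e0 * z ^ 2 * z ^ 2 with hw
  have hw0 : 0 ≤ w := by positivity
  have m1 : κ / 16 * w ≤ -(2 * S) * b ^ 2 := by
    have q1 : κ * e0 * z ^ 2 ≤ -(2 * S) := by
      have hd : κ * e0 * z ^ 2 ≤ κ * d0 * z ^ 2 :=
        mul_le_mul_of_nonneg_right (mul_le_mul_of_nonneg_left h.ed0 hκ.le) (sq_nonneg z)
      have hd1 : 0 ≤ k * d1 * x ^ 2 :=
        mul_nonneg (mul_nonneg hk.le (h.e1n.trans h.ed1)) (sq_nonneg x)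
      linarith
    have q2 : (|z| / 4) ^ 2 ≤ b ^ 2 := by
      rw [← sq_abs b]; exact pow_le_pow_left₀ (by positivity) hb0 2
    rw [div_pow, sq_abs] at q2
    calc κ / 16 * w = κ * e0 * z ^ 2 * (z ^ 2 / 4 ^ 2) := by rw [hw]; ring
      _ ≤ _ := mul_le_mul q1 q2 (by positivity) (le_trans (by positivity) q1)
  have m2 : -(8 * κ ^ 2 * w) ≤ P * b' * b := by
    refine (abs_le.1 (?_ : |P * b' * b| ≤ _)).1
    rw [abs_mul, abs_mul, abs_of_neg hU]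
    calc -P * |b'| * |b| ≤ 2 * (κ * e0 * z ^ 2) * (2 * κ * |z|) * (2 * |z|) :=
          mul_le_mul (mul_le_mul (by linarith) hb' (abs_nonneg _) (by positivity)) hb1
            (abs_nonneg _) (by positivity)
      _ = 8 * κ ^ 2 * e0 * z ^ 2 * (|z| * |z|) := by ring
      _ = _ := by rw [hw, abs_mul_abs_self]; ring
  have m3 : P ^ 2 * G ≤ 4 * κ ^ 2 * w := by
    calc P ^ 2 * G ≤ P ^ 2 * 1 := mul_le_mul_of_nonneg_left h.G1 (sq_nonneg P)
      _ = (-P) ^ 2 := by ring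
      _ ≤ (2 * (κ * e0 * z ^ 2)) ^ 2 := pow_le_pow_left₀ (by linarith) (by linarith) 2
      _ = e0 * (4 * κ ^ 2 * w) := by rw [hw]; ring
      _ ≤ _ := mul_le_of_le_one_left (by positivity) h.e01
  have m4 : 36 * κ ^ 2 * w ≤ κ / 16 * w := by
    refine mul_le_mul_of_nonneg_right ?_ hw0
    nlinarith [h.kap1]
  linarith

end CollarPt

end Vale.Agent.P255
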