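import Vale.Agent.P255.Profile.Basic
import Vale.Agent.P255.Profile.Algebra

/-!
# P255 module A2: the inequalities in the collar `[0,1]`

With `e₀ = E r`, `e₁ = E (1-r)`, `d = E'`: `A = k e₁`, `C = κ e₀`, `m' = -ν e₀ e₁`,
`U' = A x² + 2 m' x z - C z²`, `-U'' = k d₁ x² + 2 ν (d₀ e₁ - e₀ d₁) x z + κ d₀ z²`.

1. `e ≤ 1`, `d(r) = e(r)/r² ≤ 1`, `e₁²/d₁ ≤ e₁`: so `-U'' ≥ (k/2) d₁ x² + (κ/2) d₀ z²`.
2. If `U' > 0` in `(0,1)`: `C z² ≤ 6 A x²`, `U' ≤ 8 A x²`, so `|ḃ| ≥ a|x|/2`; the term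
   `2|U''| ḃ²/U'` is at least `a² x²/32` and beats the others (which are `O(k a x²)`).
3. If `U' < 0`: `A x² ≤ 6 C z²`, `|u̇| ≥ |z|/4`; the term `2|U''| u̇²/|U'|` is at least `z²/128`
   and beats the others (which are `O(κ z²)`).
-/

open scoped ContDiff Topology
open Set MeasureTheory intervalIntegral

namespace Vale.Agent.P255

/-- a neighbourhood of the collar on which `Q` is given by primitives -/
abbrev collarI : Set ℝ := Ioo (-(1/4)) (3/2)

theorem collarI_cylI {r : ℝ} (hr : r ∈ collarI) : r ∈ cylI :=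
  ⟨by linarith [hr.1], by linarith [hr.2]⟩

theorem qA_deriv {r : ℝ} (hr : r ∈ collarI) : deriv qA r = kk * eflat (1 - r) := by
  have he : qA =ᶠ[𝓝 r] fun u => 1 + rawL u :=
    Filter.eventually_of_mem (isOpen_Ioo.mem_nhds hr) fun u hu =>
      qA_eq (collarI_cylI hu) hu.1.le
  rw [he.deriv_eq]
  exact ((rawL_hasDeriv r).const_add 1).deriv

theorem qG_deriv {r : ℝ} (hr : r ∈ collarI) : deriv qG r = -(kap * eflat r) := by
  have he : qG =ᶠ[𝓝 r] rawR :=
    Filter.eventually_of_mem (isOpen_Ioo.mem_nhds hr) fun u hu =>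
      qG_eq (collarI_cylI hu) hu.2.le
  rw [he.deriv_eq]
  exact (rawR_hasDeriv r).deriv

theorem qM_deriv (r : ℝ) : deriv qM r = -(nu * eflat r * eflat (1 - r)) := by
  have h := (((prod_cont.integral_hasStrictDerivAt (0:ℝ) r).hasDerivAt).const_mul nu).const_sub 1
  rw [show deriv qM r = _ from h.deriv, mul_assoc]

theorem qA_deriv2 {r : ℝ} (hr : r ∈ collarI) :
    deriv (deriv qA) r = -(kk * deriv eflat (1 - r)) := by
  have he : deriv qA =ᶠ[𝓝 r] fun u => kk * eflat (1 - u) :=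
    Filter.eventually_of_mem (isOpen_Ioo.mem_nhds hr) fun u hu => qA_deriv hu
  rw [he.deriv_eq, ((hasDerivAt_eflat_one_sub r).const_mul kk).deriv, mul_neg]

theorem qG_deriv2 {r : ℝ} (hr : r ∈ collarI) :
    deriv (deriv qG) r = -(kap * deriv eflat r) := by
  have he : deriv qG =ᶠ[𝓝 r] fun u => -(kap * eflat u) :=
    Filter.eventually_of_mem (isOpen_Ioo.mem_nhds hr) fun u hu => qG_deriv hu
  rw [he.deriv_eq]
  exact ((hasDerivAt_eflat r).const_mul kap).fun_neg.deriv

theorem qM_deriv2 (r : ℝ) : deriv (deriv qM) r =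
    -(nu * (deriv eflat r * eflat (1 - r) - eflat r * deriv eflat (1 - r))) := by
  rw [show deriv qM = fun u => -(nu * eflat u * eflat (1 - u)) from funext qM_deriv,
    (((hasDerivAt_eflat r).const_mul nu).fun_mul (hasDerivAt_eflat_one_sub r)).fun_neg.deriv]
  ring

theorem integral_eflat_le {r : ℝ} (h0 : 0 ≤ r) (h1 : r ≤ 1) :
    ∫ u in (0:ℝ)..r, eflat u ≤ eflat r := by
  refine (integral_mono_on h0 (eflat_cont.intervalIntegrable _ _)
    intervalIntegrable_const fun u hu => eflat_mono hu.2).trans ?_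
  rw [intervalIntegral.integral_const, smul_eq_mul, sub_zero]
  exact mul_le_of_le_one_left (eflat_nonneg r) h1

theorem collarPt {r : ℝ} (hr : r ∈ Icc (0:ℝ) 1) :
    CollarPt kk kap nu aa (eflat r) (eflat (1 - r)) (deriv eflat r) (deriv eflat (1 - r))
      (qA r) (qM r) (qG r) := by
  obtain ⟨h0, h1⟩ := hr
  have hc : r ∈ cylI := ⟨by linarith, by linarith⟩
  have hA := qA_eq hc (by linarith)
  have hG := qG_eq hc (by linarith)
  obtain ⟨m0, m1⟩ := qM_bounds h0 h1
  have hp : ∀ u, 0 ≤ eflat u * eflat (1 - u) := fun u =>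
    mul_nonneg (eflat_nonneg _) (eflat_nonneg _)
  have i0 : 0 ≤ ∫ u in (0:ℝ)..r, eflat (1 - u) := integral_nonneg h0 fun u _ => eflat_nonneg _
  have i0' : ∫ u in (0:ℝ)..r, eflat (1 - u) ≤ 1 := by
    refine (abs_le.1 (abs_int_eflat_one_sub_le r)).2.trans ?_
    rwa [abs_of_nonneg h0]
  have j0 : 0 ≤ ∫ u in (0:ℝ)..r, eflat u := integral_nonneg h0 fun u _ => eflat_nonneg _
  have j1 := integral_eflat_le h0 h1
  have p0 : 0 ≤ ∫ u in (0:ℝ)..r, eflat u * eflat (1 - u) := integral_nonneg h0 fun u _ => hp u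
  have p1 : ∫ u in (0:ℝ)..r, eflat u * eflat (1 - u) ≤ eflat r :=
    (integral_mono_on h0 (prod_cont.intervalIntegrable _ _) (eflat_cont.intervalIntegrable _ _)
      fun u _ => mul_le_of_le_one_right (eflat_nonneg u) (eflat_le_one _)).trans j1
  have p2 : ∫ u in r..(1:ℝ), eflat u * eflat (1 - u) ≤ eflat (1 - r) := by
    refine (integral_mono_on h1 (prod_cont.intervalIntegrable _ _) intervalIntegrable_const
      fun u hu => (mul_le_of_le_one_left (eflat_nonneg _) (eflat_le_one u)).trans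
        (eflat_mono (by linarith [hu.1] : 1 - u ≤ 1 - r))).trans ?_
    rw [intervalIntegral.integral_const, smul_eq_mul]
    exact mul_le_of_le_one_left (eflat_nonneg _) (by linarith)
  have hk := kk_pos
  have hν := nu_pos
  have hκ : kap = 1 / 4096 := kap_eq
  refine
    { nu0 := hν.le
      kap0 := by rw [hκ]; norm_num
      kap1 := by rw [hκ]
      kkap := kk_kap.ge
      aeq := aa_eq
      e0n := eflat_nonneg _
      e1n := eflat_nonneg _
      e01 := eflat_le_one _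
      e11 := eflat_le_one _
      d01 := deriv_eflat_le_one _
      d11 := deriv_eflat_le_one _
      ed0 := eflat_le_deriv (by nlinarith)
      ed1 := eflat_le_deriv (by nlinarith)
      Age := ?_, Ale := ?_, M0 := m0, M1 := m1, Mle := ?_, MG := ?_, G0 := ?_, G1 := ?_ }
  · rw [hA, rawL]; linarith [mul_nonneg hk.le i0]
  · rw [hA, rawL]
    have h2 := mul_le_mul_of_nonneg_left i0' hk.le
    nlinarith [kk_le_aa, kk_ge, sq_nonneg nu]
  · have h := nu_mul
    rw [← integral_add_adjacent_intervals (b := r) (prod_cont.intervalIntegrable _ _)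
      (prod_cont.intervalIntegrable _ _), mul_add] at h
    rw [qM]
    linarith [mul_le_mul_of_nonneg_left p2 hν.le]
  · rw [qM, hG, rawR, abs_le, hκ]
    have := mul_le_mul_of_nonneg_left p1 hν.le
    have := mul_nonneg hν.le p0
    have := eflat_nonneg r
    constructor <;> nlinarith
  · rw [hG]; exact (rawR_bounds hc).1
  · rw [hG, rawR, hκ]; linarith

variable {r x z : ℝ}

theorem qU'_eq (hr : r ∈ Icc (0:ℝ) 1) : qU' x z r =
    qf (kk * eflat (1 - r)) (-(nu * eflat r * eflat (1 - r))) (-(kap * eflat r)) x z := by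
  have hc : r ∈ collarI := ⟨by linarith [hr.1], by linarith [hr.2]⟩
  rw [qU', qA_deriv hc, qM_deriv, qG_deriv hc]

theorem qU''_eq (hr : r ∈ Icc (0:ℝ) 1) : qU'' x z r =
    qf (-(kk * deriv eflat (1 - r)))
      (-(nu * (deriv eflat r * eflat (1 - r) - eflat r * deriv eflat (1 - r))))
      (-(kap * deriv eflat r)) x z := by
  have hc : r ∈ collarI := ⟨by linarith [hr.1], by linarith [hr.2]⟩
  rw [qU'', qA_deriv2 hc, qM_deriv2, qG_deriv2 hc]

theorem collar_concave {r : ℝ} (hr : r ∈ Icc (0:ℝ) 1) (x z : ℝ) : qU'' x z r ≤ 0 := by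
  have h := collarPt hr
  rw [qU''_eq hr]
  have := h.concave x z
  have h1 : 0 ≤ kk / 2 * deriv eflat (1 - r) * x ^ 2 :=
    mul_nonneg (mul_nonneg (by linarith [kk_pos]) (deriv_eflat_nonneg _)) (sq_nonneg x)
  have h2 : 0 ≤ kap / 2 * deriv eflat r * z ^ 2 :=
    mul_nonneg (mul_nonneg (by linarith [h.kap0]) (deriv_eflat_nonneg _)) (sq_nonneg z)
  linarith

/-- orbits moving up in `U` have `ḃ ≠ 0` -/
theorem bdot_ne_zero {r : ℝ} (hr : r ∈ Icc (0:ℝ) 1) {x z : ℝ} (h : 0 < qU' x z r) :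
    bdot x z r ≠ 0 := by
  rw [qU'_eq hr] at h
  obtain ⟨-, -, hx, hb, -⟩ := (collarPt hr).up_facts x z h
  exact abs_pos.1 (lt_of_lt_of_le (mul_pos (half_pos aa_pos) hx) hb)

/-- orbits moving down in `U` have `u̇ ≠ 0` -/
theorem udot_ne_zero {r : ℝ} (hr : r ∈ Icc (0:ℝ) 1) {x z : ℝ} (h : qU' x z r < 0) :
    udot x z r ≠ 0 := by
  rw [qU'_eq hr] at h
  obtain ⟨-, -, hz, hb, -⟩ := (collarPt hr).down_facts x z h
  exact abs_pos.1 (lt_of_lt_of_le (div_pos hz four_pos) hb)

/-- the curvature term in the left reflection gauge is nonnegative -/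
theorem left_gauge_nonneg {r : ℝ} (hr : r ∈ Ioo (0:ℝ) 1) {x z : ℝ} (h : 0 < qU' x z r) :
    0 ≤ -(1/2) * qU'' x z r + qU' x z r * bdot' x z r / bdot x z r
      - qU' x z r ^ 2 * (qA r - 2 * qM r + qG r) / (4 * bdot x z r ^ 2) := by
  have hc : r ∈ collarI := ⟨by linarith [hr.1], by linarith [hr.2]⟩
  have hr' := Ioo_subset_Icc_self hr
  rw [qU'_eq hr'] at h
  rw [qU'_eq hr', qU''_eq hr', bdot, bdot', qA_deriv hc, qM_deriv, qG_deriv hc]
  exact (collarPt hr').left x z h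

/-- the curvature term in the right reflection gauge is nonnegative -/
theorem right_gauge_nonneg {r : ℝ} (hr : r ∈ Ioo (0:ℝ) 1) {x z : ℝ} (h : qU' x z r < 0) :
    0 ≤ -(1/2) * qU'' x z r + qU' x z r * udot' x z r / udot x z r
      - qU' x z r ^ 2 * qG r / (4 * udot x z r ^ 2) := by
  have hc : r ∈ collarI := ⟨by linarith [hr.1], by linarith [hr.2]⟩
  have hr' := Ioo_subset_Icc_self hr
  rw [qU'_eq hr'] at h
  rw [qU'_eq hr', qU''_eq hr', udot, udot', qM_deriv, qG_deriv hc]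
  exact (collarPt hr').right x z h

end Vale.Agent.P255
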