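import Vale.Agent.P255.Profile.Defs

/-!
# P255 module A0: the flat function, the constants, and primitives
-/

open scoped ContDiff Topology
open Set MeasureTheory intervalIntegral

namespace Vale.Agent.P255

theorem eflat_smooth : ContDiff ℝ ∞ eflat := expNegInvGlue.contDiff

theorem eflat_diff : Differentiable ℝ eflat := eflat_smooth.differentiable (by simp)

theorem eflat_cont : Continuous eflat := eflat_smooth.continuous

theorem eflat_nonneg (x : ℝ) : 0 ≤ eflat x := expNegInvGlue.nonneg x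

theorem eflat_zero_of_nonpos {x : ℝ} (hx : x ≤ 0) : eflat x = 0 := expNegInvGlue.zero_of_nonpos hx

theorem eflat_pos {x : ℝ} (hx : 0 < x) : 0 < eflat x := expNegInvGlue.pos_of_pos hx

theorem eflat_le_one (x : ℝ) : eflat x ≤ 1 := by
  rcases le_or_gt x 0 with hx | hx
  · simp [eflat_zero_of_nonpos hx]
  · simp [eflat, expNegInvGlue, not_le.2 hx, Real.exp_le_one_iff, hx.le]

theorem eflat_mono : Monotone eflat := expNegInvGlue.monotone

theorem deriv_eflat_nonneg (x : ℝ) : 0 ≤ deriv eflat x := eflat_mono.deriv_nonneg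

theorem hasDerivAt_eflat (x : ℝ) : HasDerivAt eflat (deriv eflat x) x := (eflat_diff x).hasDerivAt

theorem deriv_eflat_of_nonpos {x : ℝ} (hx : x ≤ 0) : deriv eflat x = 0 :=
  IsLocalMin.deriv_eq_zero (Filter.Eventually.of_forall fun y => by
    rw [eflat_zero_of_nonpos hx]; exact eflat_nonneg y)

theorem deriv_eflat_of_pos {x : ℝ} (hx : 0 < x) : deriv eflat x = eflat x / x ^ 2 := by
  have h : HasDerivAt (fun y : ℝ => Real.exp (-y⁻¹)) (Real.exp (-x⁻¹) * (x ^ 2)⁻¹) x := by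
    simpa using ((hasDerivAt_inv hx.ne').neg).exp
  have he : eflat =ᶠ[𝓝 x] fun y => Real.exp (-y⁻¹) :=
    (lt_mem_nhds hx).mono fun y hy => by simp [eflat, expNegInvGlue, not_le.2 hy]
  rw [(h.congr_of_eventuallyEq he).deriv, he.eq_of_nhds, div_eq_mul_inv]

theorem deriv_eflat_mul_sq (x : ℝ) : deriv eflat x * x ^ 2 = eflat x := by
  rcases le_or_gt x 0 with hx | hx
  · simp [deriv_eflat_of_nonpos hx, eflat_zero_of_nonpos hx]
  · rw [deriv_eflat_of_pos hx]; field_simp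

theorem deriv_eflat_le_one (x : ℝ) : deriv eflat x ≤ 1 := by
  rcases le_or_gt x 0 with hx | hx
  · simp [deriv_eflat_of_nonpos hx]
  · rw [deriv_eflat_of_pos hx, div_le_one (by positivity)]
    simp only [eflat, expNegInvGlue, not_le.2 hx, if_false]
    rw [Real.exp_neg, inv_le_iff_one_le_mul₀ (Real.exp_pos _)]
    have h1 := Real.quadratic_le_exp_of_nonneg (x := x⁻¹ / 2) (by positivity)
    have h2 : Real.exp x⁻¹ = Real.exp (x⁻¹ / 2) * Real.exp (x⁻¹ / 2) := by
      rw [← Real.exp_add]; ring_nf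
    have h3 : x⁻¹ ≤ Real.exp (x⁻¹ / 2) := by nlinarith [sq_nonneg (x⁻¹ - 2)]
    have h4 : x⁻¹ * x⁻¹ ≤ Real.exp x⁻¹ := by
      rw [h2]; exact mul_le_mul h3 h3 (by positivity) (Real.exp_pos _).le
    calc (1 : ℝ) = x ^ 2 * (x⁻¹ * x⁻¹) := by field_simp
      _ ≤ x ^ 2 * Real.exp x⁻¹ := mul_le_mul_of_nonneg_left h4 (sq_nonneg x)

theorem eflat_le_deriv {x : ℝ} (hx : x ^ 2 ≤ 1) : eflat x ≤ deriv eflat x := by
  rw [← deriv_eflat_mul_sq x]
  exact mul_le_of_le_one_right (deriv_eflat_nonneg x) hx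

theorem eflat_one_sub_cont : Continuous fun u => eflat (1 - u) := eflat_cont.comp (by fun_prop)

theorem hasDerivAt_eflat_one_sub (x : ℝ) :
    HasDerivAt (fun u => eflat (1 - u)) (-deriv eflat (1 - x)) x := by
  simpa [Function.comp_def] using (hasDerivAt_eflat (1 - x)).comp x ((hasDerivAt_id x).const_sub 1)

theorem prod_cont : Continuous fun u => eflat u * eflat (1 - u) :=
  eflat_cont.mul eflat_one_sub_cont

/-! ### the constants -/

theorem prod_integral_pos : 0 < ∫ u in (0:ℝ)..1, eflat u * eflat (1 - u) :=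
  intervalIntegral_pos_of_pos_on (prod_cont.intervalIntegrable _ _)
    (fun u hu => mul_pos (eflat_pos hu.1) (eflat_pos (by linarith [hu.2]))) zero_lt_one

theorem nu_pos : 0 < nu := div_pos one_pos prod_integral_pos

theorem nu_mul : nu * ∫ u in (0:ℝ)..1, eflat u * eflat (1 - u) = 1 :=
  one_div_mul_cancel prod_integral_pos.ne'

theorem kap_eq : kap = 1 / 4096 := rfl

theorem kk_kap : kk * kap = 10 ^ 6 * (nu ^ 2 + 1) := by
  unfold kk; rw [div_mul_cancel₀ _ (by rw [kap_eq]; norm_num)]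

theorem kk_ge : 4096 * 10 ^ 6 * (nu ^ 2 + 1) ≤ kk := by
  have := kk_kap; rw [kap_eq] at this; linarith

theorem kk_pos : 0 < kk := by nlinarith [kk_ge, sq_nonneg nu]

theorem aa_eq : aa = 10 ^ 6 * kk * (nu + 1) := rfl

theorem kk_le_aa : 10 ^ 6 * kk ≤ aa := by
  rw [aa_eq]; nlinarith [kk_pos, nu_pos]

theorem aa_pos : 0 < aa := lt_of_lt_of_le (mul_pos (by norm_num) kk_pos) kk_le_aa

/-! ### primitives -/

theorem abs_integral_eflat_le {f : ℝ → ℝ} (h : ∀ u, |f u| ≤ 1) (r : ℝ) :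
    |∫ u in (0:ℝ)..r, f u| ≤ |r| := by
  simpa using norm_integral_le_of_norm_le_const (a := (0:ℝ)) (b := r) (C := 1) (f := f)
    fun u _ => h u

theorem abs_int_eflat_le (r : ℝ) : |∫ u in (0:ℝ)..r, eflat u| ≤ |r| :=
  abs_integral_eflat_le (fun u => by rw [abs_of_nonneg (eflat_nonneg u)]; exact eflat_le_one u) r

theorem abs_int_eflat_one_sub_le (r : ℝ) : |∫ u in (0:ℝ)..r, eflat (1 - u)| ≤ |r| :=
  abs_integral_eflat_le
    (fun u => by rw [abs_of_nonneg (eflat_nonneg _)]; exact eflat_le_one _) r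

/-- The primitive from `0` of a smooth function is smooth, on an interval around `0`. -/
theorem smooth_primitive {s : Set ℝ} (hs : IsOpen s) (hc : s.OrdConnected) (h0 : (0:ℝ) ∈ s)
    {f : ℝ → ℝ} (hf : ContDiffOn ℝ ∞ f s) :
    ContDiffOn ℝ ∞ (fun r => ∫ u in (0:ℝ)..r, f u) s ∧
      ∀ r ∈ s, HasDerivAt (fun r => ∫ u in (0:ℝ)..r, f u) (f r) r := by
  have hd : ∀ r ∈ s, HasDerivAt (fun r => ∫ u in (0:ℝ)..r, f u) (f r) r := fun r hr =>
    integral_hasDerivAt_right ((hf.continuousOn.mono (hc.uIcc_subset h0 hr)).intervalIntegrable)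
      (hf.continuousOn.stronglyMeasurableAtFilter hs r hr)
      (hf.continuousOn.continuousAt (hs.mem_nhds hr))
  refine ⟨(contDiffOn_infty_iff_deriv_of_isOpen hs).2
    ⟨fun r hr => (hd r hr).differentiableAt.differentiableWithinAt, ?_⟩, hd⟩
  exact hf.congr fun r hr => (hd r hr).deriv

theorem rawL_hasDeriv (r : ℝ) : HasDerivAt rawL (kk * eflat (1 - r)) r :=
  (((smooth_primitive isOpen_univ ordConnected_univ (mem_univ 0)
    (eflat_smooth.comp (contDiff_const.sub contDiff_id)).contDiffOn).2 r (mem_univ r)).const_mul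
      kk).const_add aa

theorem rawR_hasDeriv (r : ℝ) : HasDerivAt rawR (-(kap * eflat r)) r :=
  (((smooth_primitive isOpen_univ ordConnected_univ (mem_univ 0)
    eflat_smooth.contDiffOn).2 r (mem_univ r)).const_mul kap).const_sub 1

theorem rawL_smooth : ContDiff ℝ ∞ rawL :=
  contDiff_const.add (contDiff_const.mul (contDiffOn_univ.1 (smooth_primitive isOpen_univ
    ordConnected_univ (mem_univ 0) (eflat_smooth.comp (contDiff_const.sub contDiff_id)).contDiffOn).1))

theorem rawR_smooth : ContDiff ℝ ∞ rawR :=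
  contDiff_const.sub (contDiff_const.mul (contDiffOn_univ.1 (smooth_primitive isOpen_univ
    ordConnected_univ (mem_univ 0) eflat_smooth.contDiffOn).1))

theorem rawL_bounds {r : ℝ} (hr : r ∈ Ioo (-3:ℝ) 4) :
    aa - 4 * kk ≤ rawL r ∧ rawL r ≤ aa + 4 * kk := by
  have h := abs_int_eflat_one_sub_le r
  have h4 : |r| ≤ 4 := abs_le.2 ⟨by linarith [hr.1], hr.2.le⟩
  obtain ⟨h1, h2⟩ := abs_le.1 (h.trans h4)
  have := kk_pos
  unfold rawL
  constructor <;> nlinarith

theorem rawL_pos {r : ℝ} (hr : r ∈ Ioo (-3:ℝ) 4) : 0 < rawL r := by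
  linarith [(rawL_bounds hr).1, kk_le_aa, kk_pos]

theorem rawR_bounds {r : ℝ} (hr : r ∈ Ioo (-3:ℝ) 4) : 1 / 2 ≤ rawR r ∧ rawR r ≤ 3 / 2 := by
  have h4 : |r| ≤ 4 := abs_le.2 ⟨by linarith [hr.1], hr.2.le⟩
  obtain ⟨h1, h2⟩ := abs_le.1 ((abs_int_eflat_le r).trans h4)
  unfold rawR
  rw [kap_eq]
  constructor <;> linarith

theorem rawR_pos {r : ℝ} (hr : r ∈ Ioo (-3:ℝ) 4) : 0 < rawR r := by
  linarith [(rawR_bounds hr).1]

end Vale.Agent.P255
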